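import Mathlib
import Vale.Agent.P226.Cell
import Vale.Agent.P226.HalfSpace
import Vale.Agent.P226.Numerics

namespace Vale.Agent.Results.P226.HalfSpaceBound

open MeasureTheory ProbabilityTheory Real Vale.Agent.P226

/-- For every finite family of pairwise almost disjoint cells of Gaussian space `ℝ^d` (in
particular for every finite partition): the sum of the square norms of the Gaussian first moments
is at most `0.405`, and it is at most the propeller value `9/(8π)` as soon as every cell has
Gaussian measure at most `1/7`. -/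
theorem result (d k : ℕ) (A : Fin k → Set (EuclideanSpace ℝ (Fin d)))
    (hm : ∀ i, NullMeasurableSet (A i) (stdGaussian (EuclideanSpace ℝ (Fin d))))
    (hdisj : Pairwise (Function.onFun (AEDisjoint (stdGaussian (EuclideanSpace ℝ (Fin d)))) A)) :
    (∑ i, ‖∫ x in A i, x ∂stdGaussian (EuclideanSpace ℝ (Fin d))‖ ^ 2 ≤ 0.405) ∧
    ((∀ i, stdGaussian (EuclideanSpace ℝ (Fin d)) (A i) ≤ 1 / 7) →
      ∑ i, ‖∫ x in A i, x ∂stdGaussian (EuclideanSpace ℝ (Fin d))‖ ^ 2 ≤ 9 / (8 * π)) := by
  set γ := stdGaussian (EuclideanSpace ℝ (Fin d)) with hγ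
  have hsum : ∑ i, γ.real (A i) ≤ 1 := by
    have h1 : γ (⋃ i ∈ (Finset.univ : Finset (Fin k)), A i) = ∑ i, γ (A i) :=
      measure_biUnion_finset₀ (fun i _ j _ hij => hdisj hij) (fun i _ => hm i)
    have h2 : ∑ i, γ.real (A i) = γ.real (⋃ i ∈ (Finset.univ : Finset (Fin k)), A i) := by
      unfold Measure.real
      rw [h1, ENNReal.toReal_sum (fun i _ => measure_ne_top _ _)]
    rw [h2]
    exact measureReal_le_one
  -- small cells
  have hsmall : ∀ i, γ.real (A i) ≤ 1 / 16 → ‖∫ x in A i, x ∂γ‖ ^ 2 ≤ 0.3466 * γ.real (A i) := by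
    intro i hle
    rcases (measureReal_nonneg (μ := γ) (s := A i)).eq_or_lt with h0 | hpos
    · have := cell_half (A i)
      rw [← hγ, ← h0] at this
      rw [← h0]
      linarith
    · exact (cell_level_one (A i) hpos).trans (small_num' _ hpos hle)
  have hshift : ∀ i, ∀ s : ℝ, 0 ≤ s → ‖∫ x in A i, x ∂γ‖ ≤ s * γ.real (A i) + psiBar s :=
    fun i s hs => cell_shift (A i) s hs
  have hnn : ∀ i, 0 ≤ γ.real (A i) := fun i => measureReal_nonneg
  constructor
  · calc ∑ i, ‖∫ x in A i, x ∂γ‖ ^ 2 ≤ ∑ i, 0.405 * γ.real (A i) := by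
          refine Finset.sum_le_sum (fun i _ => ?_)
          rcases le_total (γ.real (A i)) (1 / 16) with h | h
          · have := hsmall i h
            have := hnn i
            linarith
          · exact num_universal _ _ (norm_nonneg _) measureReal_le_one h (hshift i)
      _ = 0.405 * ∑ i, γ.real (A i) := by rw [Finset.mul_sum]
      _ ≤ 0.405 * 1 := mul_le_mul_of_nonneg_left hsum (by norm_num)
      _ = 0.405 := by ring
  · intro h7
    have hc := propeller_const_ge
    calc ∑ i, ‖∫ x in A i, x ∂γ‖ ^ 2 ≤ ∑ i, 0.358098 * γ.real (A i) := by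
          refine Finset.sum_le_sum (fun i _ => ?_)
          rcases le_total (γ.real (A i)) (1 / 16) with h | h
          · have := hsmall i h
            have := hnn i
            linarith
          · have hle : γ.real (A i) ≤ 1 / 7 := by
              have := ENNReal.toReal_mono (by norm_num) (h7 i)
              simpa [Measure.real] using this
            exact num_seventh _ _ (norm_nonneg _) hle h (hshift i)
      _ = 0.358098 * ∑ i, γ.real (A i) := by rw [Finset.mul_sum]
      _ ≤ 0.358098 * 1 := mul_le_mul_of_nonneg_left hsum (by norm_num)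
      _ ≤ 9 / (8 * π) := by linarith

end Vale.Agent.Results.P226.HalfSpaceBound
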