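import Mathlib
import Vale.Agent.P226.Cell

namespace Vale.Agent.Results.P226.SmallCells

open MeasureTheory ProbabilityTheory Real Vale.Agent.P226

lemma small_num (a : ℝ) (ha : 0 < a) (ha' : a ≤ 1 / 16) :
    2 * a ^ 2 * Real.log (1 / a) ≤ 9 / (8 * π) * a := by
  have h1 : Real.log (1 / a) = Real.log 16 + Real.log (1 / (16 * a)) := by
    rw [← Real.log_mul (by norm_num) (by positivity)]
    congr 1
    field_simp
  have h2 : Real.log (1 / (16 * a)) ≤ 1 / (16 * a) - 1 :=
    Real.log_le_sub_one_of_pos (by positivity)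
  have h3 : Real.log 16 = 4 * Real.log 2 := by
    rw [show (16 : ℝ) = 2 ^ 4 by norm_num, Real.log_pow]
    norm_num
  have h4 := Real.log_two_lt_d9
  have h5 := Real.log_two_gt_d9
  have h6 : a * Real.log (1 / a) ≤ Real.log 16 / 16 := by
    have e : a * (1 / (16 * a) - 1) = 1 / 16 - a := by field_simp
    have : a * Real.log (1 / a) ≤ a * Real.log 16 + (1 / 16 - a) := by
      rw [h1, mul_add, ← e]
      have := mul_le_mul_of_nonneg_left h2 ha.le
      linarith
    have h7 : a * (Real.log 16 - 1) ≤ 1 / 16 * (Real.log 16 - 1) :=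
      mul_le_mul_of_nonneg_right ha' (by rw [h3]; linarith)
    linarith
  have h8 : (0.3466 : ℝ) ≤ 9 / (8 * π) := by
    rw [le_div_iff₀ (by positivity)]
    have := Real.pi_lt_d4
    linarith
  have h9 : 2 * (a * Real.log (1 / a)) ≤ 9 / (8 * π) := by
    rw [h3] at h6
    linarith
  calc 2 * a ^ 2 * Real.log (1 / a) = (2 * (a * Real.log (1 / a))) * a := by ring
    _ ≤ 9 / (8 * π) * a := mul_le_mul_of_nonneg_right h9 ha.le

/-- For every finite family of pairwise almost disjoint cells of Gaussian space `ℝ^d` (in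
particular for every finite partition): the sum of the square norms of the Gaussian first moments
is at most `1/2`, and it is at most the propeller value `9/(8π)` as soon as every cell has Gaussian
measure at most `1/16`. -/
theorem result (d k : ℕ) (A : Fin k → Set (EuclideanSpace ℝ (Fin d)))
    (hm : ∀ i, NullMeasurableSet (A i) (stdGaussian (EuclideanSpace ℝ (Fin d))))
    (hdisj : Pairwise (Function.onFun (AEDisjoint (stdGaussian (EuclideanSpace ℝ (Fin d)))) A)) :
    (∑ i, ‖∫ x in A i, x ∂stdGaussian (EuclideanSpace ℝ (Fin d))‖ ^ 2 ≤ 1 / 2) ∧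
    ((∀ i, stdGaussian (EuclideanSpace ℝ (Fin d)) (A i) ≤ 1 / 16) →
      ∑ i, ‖∫ x in A i, x ∂stdGaussian (EuclideanSpace ℝ (Fin d))‖ ^ 2 ≤ 9 / (8 * π)) := by
  set γ := stdGaussian (EuclideanSpace ℝ (Fin d)) with hγ
  have hsum : ∑ i, γ.real (A i) ≤ 1 := by
    have h1 : γ (⋃ i ∈ (Finset.univ : Finset (Fin k)), A i) = ∑ i, γ (A i) :=
      measure_biUnion_finset₀ (fun i _ j _ hij => hdisj hij) (fun i _ => hm i)
    have h2 : ∑ i, γ.real (A i) = γ.real (⋃ i ∈ (Finset.univ : Finset (Fin k)), A i) := by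
      unfold Measure.real
      rw [h1, ENNReal.toReal_sum (fun i _ => measure_ne_top _ _)]
    rw [h2]
    exact measureReal_le_one
  constructor
  · calc ∑ i, ‖∫ x in A i, x ∂γ‖ ^ 2 ≤ ∑ i, γ.real (A i) / 2 :=
        Finset.sum_le_sum (fun i _ => cell_half (A i))
      _ = (∑ i, γ.real (A i)) / 2 := by rw [Finset.sum_div]
      _ ≤ 1 / 2 := by linarith
  · intro hsmall
    have hc : (0 : ℝ) ≤ 9 / (8 * π) := by positivity
    calc ∑ i, ‖∫ x in A i, x ∂γ‖ ^ 2 ≤ ∑ i, 9 / (8 * π) * γ.real (A i) := by
          refine Finset.sum_le_sum (fun i _ => ?_)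
          rcases (measureReal_nonneg (μ := γ) (s := A i)).eq_or_lt with h0 | hpos
          · have := cell_half (A i)
            rw [← hγ, ← h0] at this
            rw [← h0]
            linarith
          · have hle : γ.real (A i) ≤ 1 / 16 := by
              have := ENNReal.toReal_mono (by norm_num) (hsmall i)
              simpa [Measure.real] using this
            exact (cell_level_one (A i) hpos).trans (small_num _ hpos hle)
      _ = 9 / (8 * π) * ∑ i, γ.real (A i) := by rw [Finset.mul_sum]
      _ ≤ 9 / (8 * π) * 1 := mul_le_mul_of_nonneg_left hsum hc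
      _ = 9 / (8 * π) := by ring

end Vale.Agent.Results.P226.SmallCells
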